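import Vale.Agent.P200.KL
import Vale.Agent.P200.KLFinal
import Vale.Agent.P200.Growth

/-! Characteristic-free treatment of the middle range, part 0: definitions. -/

namespace Vale.Agent.P200.CF

open MvPolynomial Module

/-- kernel of multiplication by `l` on `V` -/
def kerOn {K A : Type*} [Field K] [CommRing A] [Algebra K A] (l : A) (V : Submodule K A) :
    Submodule K A := V ⊓ LinearMap.ker (LinearMap.mulLeft K l)

end Vale.Agent.P200.CF
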