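import Vale.Agent.P200.CF.Basic
import Vale.Agent.P200.KLModule

/-! The graded module generated by `V` with all relations of degrees one and two. -/

namespace Vale.Agent.P200.CF

open MvPolynomial Module

section mod
variable {K : Type*} [Field K]

/-- graded pieces of the relation module generated by `R1` (degree 1) and `R2` (degree 2) -/
noncomputable def klmQ {n : ℕ} (R1 R2 : Submodule K (Fin n → S3 K)) :
    ℕ → Submodule K (Fin n → S3 K)
  | 0 => ⊥
  | 1 => R1
  | 2 => R2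
  | (j + 3) => ⨆ i, (klmQ R1 R2 (j + 2)).map (klmX K n i)

lemma klmQ_smul {n : ℕ} (R1 R2 : Submodule K (Fin n → S3 K))
    (h12 : ∀ i : Fin 3, ∀ g ∈ R1, (X i : S3 K) • g ∈ R2) (j : ℕ) (i : Fin 3)
    (g : Fin n → S3 K) (hg : g ∈ klmQ R1 R2 j) : (X i : S3 K) • g ∈ klmQ R1 R2 (j + 1) := by
  match j, hg with
  | 0, hg =>
    have h0 : g = 0 := by simpa [klmQ] using hg
    rw [h0, smul_zero]
    exact Submodule.zero_mem _
  | 1, hg => exact h12 i g hg
  | (j + 2), hg =>
    show (X i : S3 K) • g ∈ ⨆ i, (klmQ R1 R2 (j + 2)).map (klmX K n i)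
    refine Submodule.mem_iSup_of_mem i ?_
    exact ⟨g, hg, klmX_apply _ _ _⟩

lemma klmQ_le_H {n : ℕ} (R1 R2 : Submodule K (Fin n → S3 K)) (h1 : R1 ≤ klmH K n 1)
    (h2 : R2 ≤ klmH K n 2) : ∀ j, klmQ R1 R2 j ≤ klmH K n j
  | 0 => bot_le
  | 1 => h1
  | 2 => h2
  | (j + 3) => by
    refine iSup_le fun i => ?_
    rintro _ ⟨g, hg, rfl⟩
    rw [klmX_apply]
    exact klmX_mem i (klmQ_le_H R1 R2 h1 h2 (j + 2) hg)

lemma klmQ_le_span {n : ℕ} (R1 R2 : Submodule K (Fin n → S3 K)) : ∀ (j : ℕ) (g : Fin n → S3 K),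
    g ∈ klmQ R1 R2 j →
      g ∈ Submodule.span (S3 K) ((R1 : Set (Fin n → S3 K)) ∪ (R2 : Set (Fin n → S3 K)))
  | 0, g, hg => by
    have h0 : g = 0 := by simpa [klmQ] using hg
    rw [h0]
    exact Submodule.zero_mem _
  | 1, g, hg => Submodule.subset_span (Or.inl hg)
  | 2, g, hg => Submodule.subset_span (Or.inr hg)
  | (j + 3), g, hg => by
    have hle : klmQ R1 R2 (j + 3) ≤
        (Submodule.span (S3 K)
          ((R1 : Set (Fin n → S3 K)) ∪ (R2 : Set (Fin n → S3 K)))).restrictScalars K := by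
      refine iSup_le fun i => ?_
      rintro _ ⟨g, hg, rfl⟩
      rw [klmX_apply]
      exact Submodule.smul_mem (Submodule.span (S3 K) ((R1 : Set (Fin n → S3 K)) ∪ R2)) _
        (klmQ_le_span R1 R2 (j + 2) g hg)
    exact hle hg

/-- the relation module is graded -/
lemma klmP_mem_Q {n : ℕ} (R1 R2 : Submodule K (Fin n → S3 K)) (h1 : R1 ≤ klmH K n 1)
    (h2 : R2 ≤ klmH K n 2) (h12 : ∀ i : Fin 3, ∀ g ∈ R1, (X i : S3 K) • g ∈ R2)
    (g : Fin n → S3 K)
    (hg : g ∈ Submodule.span (S3 K) ((R1 : Set (Fin n → S3 K)) ∪ (R2 : Set (Fin n → S3 K)))) :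
    ∀ j, klmP K n j g ∈ klmQ R1 R2 j := by
  induction hg using Submodule.span_induction with
  | mem x hx =>
    intro j
    rcases hx with hx | hx
    · by_cases hj : j = 1
      · subst hj
        rw [klmP_self (h1 hx)]
        exact hx
      · rw [klmP_other (h1 hx) hj]
        exact Submodule.zero_mem _
    · by_cases hj : j = 2
      · subst hj
        rw [klmP_self (h2 hx)]
        exact hx
      · rw [klmP_other (h2 hx) hj]
        exact Submodule.zero_mem _
  | zero => intro j; rw [map_zero]; exact Submodule.zero_mem _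
  | add x y _ _ hx hy => intro j; rw [map_add]; exact Submodule.add_mem _ (hx j) (hy j)
  | smul p x _ hx =>
    induction p using MvPolynomial.induction_on generalizing x with
    | C a =>
      intro j
      have h2 : (C a : S3 K) • x = a • x := by
        rw [← algebraMap_eq, algebraMap_smul]
      rw [h2, map_smul]
      exact Submodule.smul_mem _ _ (hx j)
    | add p q hp hq =>
      intro j
      rw [add_smul, map_add]
      exact Submodule.add_mem _ (hp x ‹_› hx j) (hq x ‹_› hx j)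
    | mul_X p i hp =>
      intro j
      rw [mul_comm, mul_smul]
      cases j with
      | zero => rw [klmP_zero_smul]; exact Submodule.zero_mem _
      | succ j => rw [klmP_succ_smul]; exact klmQ_smul _ _ h12 _ _ _ (hp x ‹_› hx j)

end mod

/-- The module attached to a finite-dimensional subspace `V` of an algebra, with all relations
of degrees one and two. -/
theorem kl_module2 {K : Type*} {A : Type*} [Field K] [CommRing A] [Algebra K A] (y : Fin 3 → A)
    (V : Submodule K A) [Module.Finite K V] :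
    ∃ (n : ℕ) (R : Submodule (S3 K) (Fin n → S3 K)) (gr : ℕ → Submodule K ((Fin n → S3 K) ⧸ R))
      (π : ((Fin n → S3 K) ⧸ R) →ₗ[K] A),
      (∀ (g : S3 K) (u : (Fin n → S3 K) ⧸ R), π (g • u) = aeval y g * π u) ∧
      (∀ j, Module.Finite K (gr j)) ∧
      iSupIndep gr ∧
      (∀ j i, ∀ u ∈ gr j, (X i : S3 K) • u ∈ gr (j+1)) ∧
      (∀ j, ∀ u ∈ gr (j+1), ∃ v0 ∈ gr j, ∃ v1 ∈ gr j, ∃ v2 ∈ gr j,
        u = (X 0 : S3 K) • v0 + (X 1 : S3 K) • v1 + (X 2 : S3 K) • v2) ∧
      (∀ j, ∀ u0 ∈ gr (j+2), ∀ u1 ∈ gr (j+2), ∀ u2 ∈ gr (j+2),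
        (X 0 : S3 K) • u0 + (X 1 : S3 K) • u1 + (X 2 : S3 K) • u2 = 0 →
        ∃ c01 ∈ gr (j+1), ∃ c02 ∈ gr (j+1), ∃ c12 ∈ gr (j+1),
          u0 = (X 1 : S3 K) • c01 + (X 2 : S3 K) • c02 ∧
          u1 = - ((X 0 : S3 K) • c01) + (X 2 : S3 K) • c12 ∧
          u2 = - ((X 0 : S3 K) • c02) - (X 1 : S3 K) • c12) ∧
      (gr 0).map π = V ∧
      (∀ u ∈ gr 0, π u = 0 → u = 0) ∧ (∀ u ∈ gr 1, π u = 0 → u = 0) ∧
      (∀ u ∈ gr 2, π u = 0 → u = 0) := by
  classical
  set n := finrank K V with hn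
  let b : Module.Basis (Fin n) K V := Module.finBasis K V
  let v : Fin n → A := fun s => (b s : A)
  let R1 : Submodule K (Fin n → S3 K) := klmH K n 1 ⊓ LinearMap.ker (klmE y v)
  have hR1H : R1 ≤ klmH K n 1 := inf_le_left
  let R2 : Submodule K (Fin n → S3 K) := klmH K n 2 ⊓ LinearMap.ker (klmE y v)
  have hR2H : R2 ≤ klmH K n 2 := inf_le_left
  have h12 : ∀ i : Fin 3, ∀ g ∈ R1, (X i : S3 K) • g ∈ R2 := by
    intro i g hg
    refine ⟨klmX_mem i hg.1, ?_⟩
    have h0 : klmE y v g = 0 := hg.2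
    rw [SetLike.mem_coe, LinearMap.mem_ker, klmE_smul, h0, mul_zero]
  let R : Submodule (S3 K) (Fin n → S3 K) :=
    Submodule.span (S3 K) ((R1 : Set (Fin n → S3 K)) ∪ (R2 : Set (Fin n → S3 K)))
  have hR1R : ∀ g ∈ R1, g ∈ R := fun g hg => Submodule.subset_span (Or.inl hg)
  have hR2R : ∀ g ∈ R2, g ∈ R := fun g hg => Submodule.subset_span (Or.inr hg)
  have hRE : ∀ r ∈ R, klmE y v r = 0 := by
    intro r hr
    induction hr using Submodule.span_induction with
    | mem x hx =>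
      rcases hx with hx | hx
      · exact hx.2
      · exact hx.2
    | zero => exact map_zero _
    | add x z _ _ hx hz => rw [map_add, hx, hz, add_zero]
    | smul p x _ hx => rw [klmE_smul, hx, mul_zero]
  have hRP : ∀ r ∈ R, ∀ j, klmP K n j r ∈ klmQ R1 R2 j := fun r hr =>
    klmP_mem_Q R1 R2 hR1H hR2H h12 r hr
  let mk : (Fin n → S3 K) →ₗ[K] ((Fin n → S3 K) ⧸ R) := R.mkQ.restrictScalars K
  have hmk0 : ∀ g, mk g = 0 ↔ g ∈ R := fun g => Submodule.Quotient.mk_eq_zero R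
  have hmks : ∀ (p : S3 K) (g : Fin n → S3 K), mk (p • g) = p • mk g := fun p g =>
    R.mkQ.map_smul p g
  have hmksurj : Function.Surjective mk := R.mkQ_surjective
  have hRle : R.restrictScalars K ≤ LinearMap.ker (klmE y v) := fun r hr => hRE r hr
  let π : ((Fin n → S3 K) ⧸ R) →ₗ[K] A :=
    ((R.restrictScalars K).liftQ (klmE y v) hRle) ∘ₗ
      (Submodule.Quotient.restrictScalarsEquiv K R).symm.toLinearMap
  have hπ : ∀ g, π (mk g) = klmE y v g := fun g => rfl
  let gr : ℕ → Submodule K ((Fin n → S3 K) ⧸ R) := fun j => (klmH K n j).map mk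
  have hgr : ∀ j u, u ∈ gr j ↔ ∃ g ∈ klmH K n j, mk g = u := fun j u => Iff.rfl
  -- the induced projections
  have hPle : ∀ j, R.restrictScalars K ≤
      (R.restrictScalars K).comap (klmP K n j) := fun j r hr =>
    klmQ_le_span R1 R2 j _ (hRP r hr j)
  let pq : ℕ → ((Fin n → S3 K) ⧸ R) →ₗ[K] ((Fin n → S3 K) ⧸ R) := fun j =>
    (Submodule.Quotient.restrictScalarsEquiv K R).toLinearMap ∘ₗ
      ((R.restrictScalars K).mapQ (R.restrictScalars K) (klmP K n j) (hPle j)) ∘ₗ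
        (Submodule.Quotient.restrictScalarsEquiv K R).symm.toLinearMap
  have hpq : ∀ j g, pq j (mk g) = mk (klmP K n j g) := fun j g => rfl
  refine ⟨n, R, gr, π, ?_, ?_, ?_, ?_, ?_, ?_, ?_, ?_, ?_, ?_⟩
  · intro g u
    obtain ⟨w, rfl⟩ := hmksurj u
    rw [← hmks, hπ, hπ, klmE_smul]
  · intro j
    have hfin : Module.Finite K (homogeneousSubmodule (Fin 3) K j) :=
      Module.Finite.iff_fg.2 (homogeneousSubmodule_fg (Fin 3) K j)
    let f : (Fin n → homogeneousSubmodule (Fin 3) K j) →ₗ[K] (Fin n → S3 K) :=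
      LinearMap.pi fun s => (homogeneousSubmodule (Fin 3) K j).subtype ∘ₗ LinearMap.proj s
    have hf : gr j = LinearMap.range (mk ∘ₗ f) := by
      ext u
      constructor
      · rintro ⟨g, hg, rfl⟩
        exact ⟨fun s => ⟨g s, mem_klmH.1 hg s⟩, rfl⟩
      · rintro ⟨g, rfl⟩
        exact ⟨f g, mem_klmH.2 fun s => (g s).2, rfl⟩
    rw [hf]
    infer_instance
  · rw [iSupIndep_def]
    intro i
    rw [Submodule.disjoint_def]
    intro x hx hx2
    have h1 : pq i x = x := by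
      obtain ⟨g, hg, rfl⟩ := hx
      rw [hpq, klmP_self hg]
    have h2 : (⨆ j, ⨆ (_ : j ≠ i), gr j) ≤ LinearMap.ker (pq i) := by
      refine iSup_le fun j => iSup_le fun hj => ?_
      rintro _ ⟨g, hg, rfl⟩
      rw [LinearMap.mem_ker, hpq, klmP_other hg (Ne.symm hj), map_zero]
    rw [← h1]
    exact h2 hx2
  · rintro j i _ ⟨g, hg, rfl⟩
    exact ⟨(X i : S3 K) • g, klmX_mem i hg, hmks _ _⟩
  · rintro j _ ⟨g, hg, rfl⟩
    have h1 := fun s => klm_split j (g s) (mem_klmH.1 hg s)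
    choose q hq hq2 using h1
    have hmem : ∀ i : Fin 3, (fun s => q s i) ∈ klmH K n j := fun i =>
      mem_klmH.2 fun s => hq s i
    refine ⟨_, ⟨_, hmem 0, rfl⟩, _, ⟨_, hmem 1, rfl⟩, _, ⟨_, hmem 2, rfl⟩, ?_⟩
    rw [← hmks, ← hmks, ← hmks, ← map_add, ← map_add]
    congr 1
    funext s
    exact hq2 s
  · rintro j _ ⟨g0, hg0, rfl⟩ _ ⟨g1, hg1, rfl⟩ _ ⟨g2, hg2, rfl⟩ h
    rw [← hmks, ← hmks, ← hmks, ← map_add, ← map_add, hmk0] at h
    have h1 := hRP _ h (j + 3)
    have hH : (X 0 : S3 K) • g0 + (X 1 : S3 K) • g1 + (X 2 : S3 K) • g2 ∈ klmH K n (j + 2 + 1) :=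
      Submodule.add_mem _ (Submodule.add_mem _ (klmX_mem 0 hg0) (klmX_mem 1 hg1))
        (klmX_mem 2 hg2)
    rw [klmP_self hH, klmQ] at h1
    have h2 : ∃ r : Fin 3 → (Fin n → S3 K), (∀ i, r i ∈ klmQ R1 R2 (j + 2)) ∧
        (X 0 : S3 K) • g0 + (X 1 : S3 K) • g1 + (X 2 : S3 K) • g2 =
        (X 0 : S3 K) • r 0 + (X 1 : S3 K) • r 1 + (X 2 : S3 K) • r 2 := by
      rw [Submodule.mem_iSup_iff_exists_finsupp] at h1
      obtain ⟨f, hf, hs⟩ := h1
      choose r hr hr2 using hf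
      refine ⟨r, hr, ?_⟩
      rw [← hs, Finsupp.sum_fintype _ _ (fun _ => rfl), Fin.sum_univ_three, ← hr2, ← hr2, ← hr2,
        klmX_apply, klmX_apply, klmX_apply]
    obtain ⟨r, hr, hrs⟩ := h2
    have hrH : ∀ i, r i ∈ klmH K n (j + 2) := fun i => klmQ_le_H R1 R2 hR1H hR2H _ (hr i)
    have hrR : ∀ i, mk (r i) = 0 := fun i => (hmk0 _).2 (klmQ_le_span R1 R2 _ _ (hr i))
    have h3 : ∀ s, ∃ c : Fin 3 → S3 K, (∀ i, c i ∈ homogeneousSubmodule (Fin 3) K (j + 1)) ∧
        (g0 - r 0) s = X 1 * c 0 + X 2 * c 1 ∧ (g1 - r 1) s = - (X 0 * c 0) + X 2 * c 2 ∧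
        (g2 - r 2) s = - (X 0 * c 1) - X 1 * c 2 := by
      intro s
      obtain ⟨c01, h01, c02, h02, c12, h12, e0, e1, e2⟩ :=
        klm_kos (j + 1) ![(g0 - r 0) s, (g1 - r 1) s, (g2 - r 2) s] (by
          intro i
          fin_cases i
          · exact mem_klmH.1 (Submodule.sub_mem _ hg0 (hrH 0)) s
          · exact mem_klmH.1 (Submodule.sub_mem _ hg1 (hrH 1)) s
          · exact mem_klmH.1 (Submodule.sub_mem _ hg2 (hrH 2)) s) (by
          have h4 := congrFun hrs s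
          simp only [Pi.add_apply, Pi.smul_apply, smul_eq_mul, Pi.sub_apply,
            Matrix.cons_val_zero, Matrix.cons_val_one, Matrix.cons_val] at h4 ⊢
          linear_combination h4)
      refine ⟨![c01, c02, c12], ?_, e0, e1, e2⟩
      intro i
      fin_cases i
      · exact h01
      · exact h02
      · exact h12
    choose c hc e0 e1 e2 using h3
    have hmem : ∀ i : Fin 3, (fun s => c s i) ∈ klmH K n (j + 1) := fun i =>
      mem_klmH.2 fun s => hc s i
    refine ⟨_, ⟨_, hmem 0, rfl⟩, _, ⟨_, hmem 1, rfl⟩, _, ⟨_, hmem 2, rfl⟩, ?_, ?_, ?_⟩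
    · rw [← hmks, ← hmks, ← map_add]
      have h5 : mk g0 = mk (g0 - r 0) := by rw [map_sub, hrR, sub_zero]
      rw [h5]
      congr 1
      funext s
      exact e0 s
    · rw [← hmks, ← hmks, ← map_neg, ← map_add]
      have h5 : mk g1 = mk (g1 - r 1) := by rw [map_sub, hrR, sub_zero]
      rw [h5]
      congr 1
      funext s
      exact e1 s
    · rw [← hmks, ← hmks, ← map_neg, ← map_sub]
      have h5 : mk g2 = mk (g2 - r 2) := by rw [map_sub, hrR, sub_zero]
      rw [h5]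
      congr 1
      funext s
      exact e2 s
  · have hconst : ∀ g ∈ klmH K n 0, ∃ a : Fin n → K, ∀ s, g s = C (a s) := by
      intro g hg
      refine ⟨fun s => coeff 0 (g s), fun s => ?_⟩
      have h1 := homogeneousComponent_eq_self (mem_klmH.1 hg s)
      rw [homogeneousComponent_zero] at h1
      exact h1.symm
    ext z
    constructor
    · rintro ⟨_, ⟨g, hg, rfl⟩, rfl⟩
      obtain ⟨a, ha⟩ := hconst g hg
      rw [hπ, klmE_apply]
      refine Submodule.sum_mem _ fun s _ => ?_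
      rw [ha, ← algebraMap_eq, AlgHom.commutes, ← Algebra.smul_def]
      exact Submodule.smul_mem _ _ (b s).2
    · intro hz
      refine ⟨mk (fun s => C (b.repr ⟨z, hz⟩ s)), ⟨_, mem_klmH.2 fun s => isHomogeneous_C _ _, rfl⟩,
        ?_⟩
      rw [hπ, klmE_apply]
      have h1 := b.sum_repr ⟨z, hz⟩
      have h2 := congrArg (V.subtype) h1
      rw [map_sum] at h2
      simp only [map_smul] at h2
      refine Eq.trans (Finset.sum_congr rfl fun s _ => ?_) h2
      rw [← algebraMap_eq, AlgHom.commutes, ← Algebra.smul_def]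
      rfl
  · rintro _ ⟨g, hg, rfl⟩ h
    have h0 : ∀ s, g s = C (coeff 0 (g s)) := fun s => by
      have h1 := homogeneousComponent_eq_self (mem_klmH.1 hg s)
      rw [homogeneousComponent_zero] at h1
      exact h1.symm
    rw [hπ, klmE_apply] at h
    have h2 : ∑ s, (coeff 0 (g s)) • b s = 0 := by
      apply V.injective_subtype
      rw [map_sum, map_zero, ← h]
      refine Finset.sum_congr rfl fun s _ => ?_
      rw [h0 s, map_smul, ← algebraMap_eq, AlgHom.commutes, ← Algebra.smul_def, algebraMap_eq,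
        coeff_C, if_pos rfl]
      rfl
    have h3 := Fintype.linearIndependent_iff.1 b.linearIndependent _ h2
    have h4 : g = 0 := by
      funext s
      rw [h0 s, h3 s, C_0]
      rfl
    rw [h4, map_zero]
  · rintro _ ⟨g, hg, rfl⟩ h
    rw [hmk0]
    exact hR1R _ ⟨hg, h⟩
  · rintro _ ⟨g, hg, rfl⟩ h
    rw [hmk0]
    exact hR2R _ ⟨hg, h⟩

end Vale.Agent.P200.CF
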