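import Vale.Agent.P200.CF.Basic
import Vale.Agent.P200.Pencil

namespace Vale.Agent.P200.CF

open MvPolynomial Module

/-- Pencil lemma without injectivity of `y 0`. -/
theorem cf_pencil {K A : Type*} [Field K] [Infinite K] [CommRing A] [Algebra K A]
    (y : Fin 3 → A) (V : Submodule K A) [Module.Finite K V] (k : ℤ)
    (hk : (finrank K (sh y V) : ℤ) = finrank K V + k)
    (hn : ∀ t : K, V.map (LinearMap.mulLeft K (y 0)) ⊔
      V.map (LinearMap.mulLeft K (y 1 + t • y 2)) ≠ sh y V) :
    ∃ V1 ≤ V, (finrank K V : ℤ) + 1 ≤ finrank K V1 + k + finrank K (kerOn (y 0) V) ∧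
      (finrank K (sh y V1) : ℤ) + 1 ≤ finrank K V1 + k := by
  set S := sh y V with hS
  have hmem : ∀ i, ∀ v ∈ V, y i * v ∈ S := fun i v hv =>
    (le_iSup (fun i => V.map (LinearMap.mulLeft K (y i))) i) ⟨v, hv, rfl⟩
  haveI hSfin : Module.Finite K S := by
    rw [hS]
    unfold sh
    infer_instance
  let m : Fin 3 → (V →ₗ[K] S) := fun i =>
    LinearMap.codRestrict S ((LinearMap.mulLeft K (y i)).domRestrict V) (fun v => hmem i v v.2)
  have hm : ∀ i (v : V), ((m i v : S) : A) = y i * v := fun i v => rfl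
  let N : Submodule K S := LinearMap.range (m 0)
  have hkerz : finrank K (LinearMap.ker (m 0)) = finrank K (kerOn (y 0) V) := by
    have h1 : (LinearMap.ker (m 0)).map V.subtype = kerOn (y 0) V := by
      ext w
      constructor
      · rintro ⟨v, hv, rfl⟩
        refine ⟨v.2, ?_⟩
        have h1 : y 0 * (v : A) = 0 := by
          rw [← hm 0 v, LinearMap.mem_ker.1 hv]; rfl
        exact h1
      · rintro ⟨hw, hw0⟩
        refine ⟨⟨w, hw⟩, ?_, rfl⟩
        exact LinearMap.mem_ker.2 (Subtype.ext hw0)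
    rw [← h1, Submodule.finrank_map_subtype_eq]
  have hN : finrank K N + finrank K (kerOn (y 0) V) = finrank K V := by
    rw [← hkerz]
    exact LinearMap.finrank_range_add_finrank_ker (m 0)
  have hQ : (finrank K (S ⧸ N) : ℤ) = k + finrank K (kerOn (y 0) V) := by
    have := Submodule.finrank_quotient_add_finrank N
    omega
  let A1 : V →ₗ[K] (S ⧸ N) := N.mkQ.comp (m 1)
  let A2 : V →ₗ[K] (S ⧸ N) := N.mkQ.comp (m 2)
  have hns : ∀ t : K, ¬ Function.Surjective (A1 + t • A2) := by
    intro t hsurj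
    refine hn t (le_antisymm ?_ ?_)
    · refine sup_le ?_ ?_
      · rintro _ ⟨v, hv, rfl⟩
        exact hmem 0 v hv
      · rintro _ ⟨v, hv, rfl⟩
        have h1 : (LinearMap.mulLeft K (y 1 + t • y 2)) v = y 1 * v + t • (y 2 * v) := by
          simp [add_mul]
        rw [h1]
        exact S.add_mem (hmem 1 v hv) (S.smul_mem t (hmem 2 v hv))
    · intro w hw
      obtain ⟨v, hv⟩ := hsurj (N.mkQ ⟨w, hw⟩)
      have h1 : N.mkQ (⟨w, hw⟩ - (m 1 v + t • m 2 v)) = 0 := by
        rw [map_sub, map_add, map_smul, sub_eq_zero]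
        exact hv.symm
      have h2 : (⟨w, hw⟩ - (m 1 v + t • m 2 v) : S) ∈ N := by
        have := (Submodule.Quotient.mk_eq_zero N).1 h1
        exact this
      obtain ⟨v', hv'⟩ := h2
      have h3 : y 0 * (v' : A) = w - (y 1 * (v : A) + t • (y 2 * (v : A))) := by
        have := congrArg (fun s : S => (s : A)) hv'
        simpa [hm] using this
      have h4 : w = y 0 * (v' : A) + (y 1 + t • y 2) * (v : A) := by
        rw [h3, add_mul, smul_mul_assoc]
        abel
      rw [h4]
      exact Submodule.add_mem_sup ⟨v', v'.2, rfl⟩ ⟨v, v.2, rfl⟩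
  obtain ⟨U', hU'⟩ := pencil A1.dualMap A2.dualMap (fun t => by
    have h1 : ¬ Function.Injective (A1 + t • A2).dualMap := fun hc =>
      hns t (LinearMap.dualMap_injective_iff.1 hc)
    rw [← LinearMap.ker_eq_bot, LinearMap.ker_eq_bot'] at h1
    push Not at h1
    obtain ⟨φ, hφ, hφ0⟩ := h1
    have h2 : (A1 + t • A2).dualMap φ = A1.dualMap φ + t • A2.dualMap φ := by
      ext v
      simp [LinearMap.dualMap_apply]
    exact ⟨φ, hφ0, h2 ▸ hφ⟩)
  set D := U'.map A1.dualMap ⊔ U'.map A2.dualMap with hD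
  have hD1 := Subspace.finrank_add_finrank_dualCoannihilator_eq (K := K) D
  have hU1 := Subspace.finrank_add_finrank_dualCoannihilator_eq (K := K) U'
  refine ⟨D.dualCoannihilator.map V.subtype, Submodule.map_subtype_le V _, ?_, ?_⟩
  · rw [Submodule.finrank_map_subtype_eq]
    omega
  · rw [Submodule.finrank_map_subtype_eq]
    have hle : sh y (D.dualCoannihilator.map V.subtype) ≤
        ((U'.dualCoannihilator).comap N.mkQ).map S.subtype := by
      unfold sh
      refine iSup_le fun i => ?_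
      rintro _ ⟨_, ⟨v, hv, rfl⟩, rfl⟩
      have hv' : v ∈ D.dualCoannihilator := hv
      rw [Submodule.mem_dualCoannihilator] at hv'
      refine ⟨m i v, ?_, rfl⟩
      rw [SetLike.mem_coe, Submodule.mem_comap, Submodule.mem_dualCoannihilator]
      intro φ hφ
      fin_cases i
      · have h0 : N.mkQ (m 0 v) = 0 :=
          (Submodule.Quotient.mk_eq_zero N).2 ⟨v, rfl⟩
        change φ (N.mkQ (m 0 v)) = 0
        rw [h0, map_zero]
      · exact hv' (A1.dualMap φ) (Submodule.mem_sup_left ⟨φ, hφ, rfl⟩)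
      · exact hv' (A2.dualMap φ) (Submodule.mem_sup_right ⟨φ, hφ, rfl⟩)
    have h1 := Submodule.finrank_mono hle
    rw [Submodule.finrank_map_subtype_eq, finrank_comap_mkQ_pencil] at h1
    omega

end Vale.Agent.P200.CF
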