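import Vale.Agent.P200.CF.Module2

namespace Vale.Agent.P200.CF

open MvPolynomial Module

/-- torsion subspace lemma -/
theorem cf_ts {K A : Type*} [Field K] [Infinite K] [CommRing A] [Algebra K A]
    (y : Fin 3 → A) (V : Submodule K A) [Module.Finite K V] (k : ℤ)
    (hk : (finrank K (sh y V) : ℤ) = finrank K V + k)
    (hgen : V.map (LinearMap.mulLeft K (y 0)) ⊔ V.map (LinearMap.mulLeft K (y 1)) = sh y V)
    (hk2 : (finrank K (sh y V) : ℤ) + k ≤ finrank K (sh y (sh y V)) + 1)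
    (hz : ∀ t : K, finrank K (kerOn (y 0 + t • y 1) V) + 1 ≤
      finrank K (kerOn (y 0 + t • y 1) (sh y V))) :
    ∃ t : K, ∃ V1 ≤ V, V1 ≠ ⊥ ∧ kerOn (y 0 + t • y 1) V ≤ V1 ∧
      sh y V1 ≤ V1.map (LinearMap.mulLeft K (y 0 + t • y 1)) := by
  have := sh_fin y V
  have := sh_fin y (sh y V)
  obtain ⟨n, R, g, π, hπ, hfin, hind, hX, hgen3, hkos, hmap, hinj0, hinj1, hinj2⟩ :=
    kl_module2 y V
  have hπX : ∀ i u, π ((X i : S3 K) • u) = y i * π u := by
    intro i u; rw [hπ, aeval_X]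
  have hmap1 : ∀ j W, (g j).map π = W → (g (j+1)).map π = sh y W := by
    intro j W hW
    refine le_antisymm ?_ ?_
    · rintro _ ⟨u, hu, rfl⟩
      obtain ⟨v0, h0, v1, h1, v2, h2, rfl⟩ := hgen3 j u hu
      refine mem_sh_iff.2 ⟨π v0, hW ▸ ⟨v0, h0, rfl⟩, π v1, hW ▸ ⟨v1, h1, rfl⟩, π v2,
        hW ▸ ⟨v2, h2, rfl⟩, ?_⟩
      rw [map_add, map_add, hπX, hπX, hπX]
    · refine sh_le fun i v hv => ?_
      rw [← hW] at hv
      obtain ⟨v, hv, rfl⟩ := hv
      exact ⟨(X i : S3 K) • v, hX j i v hv, hπX i v⟩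
  have hm1 := hmap1 0 V hmap
  have hm2 := hmap1 1 _ hm1
  have hdim : ∀ j, (∀ u ∈ g j, π u = 0 → u = 0) → ∀ W ≤ g j,
      finrank K (W.map π) = finrank K W := by
    intro j hj W hW
    have h1 : ∀ u : W, π.domRestrict W u = 0 → u = 0 := fun u hu =>
      Subtype.ext (hj u (hW u.2) hu)
    have h2 : finrank K (LinearMap.range (π.domRestrict W)) = finrank K W :=
      LinearMap.finrank_range_of_inj ((LinearMap.ker_eq_bot.1 (LinearMap.ker_eq_bot'.2 h1)))
    rwa [LinearMap.range_domRestrict] at h2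
  have hd0 : finrank K (g 0) = finrank K V := by
    rw [← hdim 0 hinj0 _ le_rfl, hmap]
  have hd1 : finrank K (g 1) = finrank K (sh y V) := by
    rw [← hdim 1 hinj1 _ le_rfl, hm1]
  have hd2 : finrank K (g 2) = finrank K (sh y (sh y V)) := by
    rw [← hdim 2 hinj2 _ le_rfl, hm2]
  -- generation by `y 0, y 1`
  have hgen01 : ∀ j, ∀ u ∈ g (j+1), ∃ v ∈ g j, ∃ w ∈ g j,
      u = (X 0 : S3 K) • v + (X 1 : S3 K) • w := by
    intro j
    induction j with
    | zero =>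
      intro u hu
      have h1 : π u ∈ sh y V := hm1 ▸ ⟨u, hu, rfl⟩
      rw [← hgen] at h1
      obtain ⟨_, ⟨v, hv, rfl⟩, _, ⟨w, hw, rfl⟩, h2⟩ := Submodule.mem_sup.1 h1
      rw [SetLike.mem_coe, ← hmap] at hv hw
      obtain ⟨v, hv, rfl⟩ := hv
      obtain ⟨w, hw, rfl⟩ := hw
      refine ⟨v, hv, w, hw, ?_⟩
      have h3 : u - ((X 0 : S3 K) • v + (X 1 : S3 K) • w) ∈ g 1 :=
        Submodule.sub_mem _ hu (Submodule.add_mem _ (hX 0 0 v hv) (hX 0 1 w hw))
      have h4 : π (u - ((X 0 : S3 K) • v + (X 1 : S3 K) • w)) = 0 := by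
        rw [map_sub, map_add, hπX, hπX, ← h2]
        simp
      exact sub_eq_zero.1 (hinj1 _ h3 h4)
    | succ j ih =>
      intro u hu
      obtain ⟨v0, h0, v1, h1, v2, h2, rfl⟩ := hgen3 _ u hu
      obtain ⟨v, hv, w, hw, rfl⟩ := ih v2 h2
      refine ⟨v0 + (X 2 : S3 K) • v, Submodule.add_mem _ h0 (hX _ _ _ hv),
        v1 + (X 2 : S3 K) • w, Submodule.add_mem _ h1 (hX _ _ _ hw), ?_⟩
      rw [smul_add, smul_add, smul_add, smul_comm (X 2 : S3 K) (X 0 : S3 K) v,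
        smul_comm (X 2 : S3 K) (X 1 : S3 K) w]
      abel
  -- torsion killer and choice of `t`
  obtain ⟨d, q, hqd, hq0, hq⟩ := kl_tors g hfin hind hX 1
  obtain ⟨t, ht⟩ := (binary_zeros d q hqd hq0).infinite_compl.nonempty
  have hqt : eval ![-t, 1] q ≠ 0 := ht
  let l : Module.End K ((Fin n → S3 K) ⧸ R) := sm (X 0 + C t * X 1)
  let m : Module.End K ((Fin n → S3 K) ⧸ R) := sm (X 1)
  let x : Module.End K ((Fin n → S3 K) ⧸ R) := sm (X 2)
  have hl : ∀ u, l u = (X 0 + C t * X 1 : S3 K) • u := fun u => rfl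
  have hm : ∀ u, m u = (X 1 : S3 K) • u := fun u => rfl
  have hx : ∀ u, x u = (X 2 : S3 K) • u := fun u => rfl
  have hl' : ∀ u, l u = (X 0 : S3 K) • u + t • ((X 1 : S3 K) • u) := by
    intro u
    rw [hl, add_smul, mul_smul, C_eq_smul_one, smul_assoc, one_smul]
  have hπl : ∀ u, π (l u) = (y 0 + t • y 1) * π u := by
    intro u
    rw [hl', map_add, hπX, LinearMap.map_smul π t, hπX, add_mul, smul_mul_assoc]
  have hlmem : ∀ j, ∀ u ∈ g j, l u ∈ g (j+1) := by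
    intro j u hu
    rw [hl']
    exact Submodule.add_mem _ (hX j 0 u hu) (Submodule.smul_mem _ _ (hX j 1 u hu))
  have hmmem : ∀ j, ∀ u ∈ g j, m u ∈ g (j+1) := fun j u hu => hX j 1 u hu
  have hxmem : ∀ j, ∀ u ∈ g j, x u ∈ g (j+1) := fun j u hu => hX j 2 u hu
  have hlm : ∀ u, l (m u) = m (l u) := fun u => by
    rw [hl, hm, hm, hl, ← mul_smul, ← mul_smul, mul_comm]
  have hlx : ∀ u, l (x u) = x (l u) := fun u => by
    rw [hl, hx, hx, hl, ← mul_smul, ← mul_smul, mul_comm]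
  have hgenlm : ∀ j, ∀ u ∈ g (j+1), ∃ v ∈ g j, ∃ w ∈ g j, u = l v + m w := by
    intro j u hu
    obtain ⟨v, hv, w, hw, rfl⟩ := hgen01 j u hu
    refine ⟨v, hv, w - t • v, Submodule.sub_mem _ hw (Submodule.smul_mem _ _ hv), ?_⟩
    rw [hl', hm, smul_sub, smul_comm (X 1 : S3 K) t v]
    abel
  have hkos' : ∀ j, ∀ u0 ∈ g (j+2), ∀ u1 ∈ g (j+2), ∀ u2 ∈ g (j+2),
      l u0 + m u1 + x u2 = 0 →
      ∃ c01 ∈ g (j+1), ∃ c02 ∈ g (j+1), ∃ c12 ∈ g (j+1),
        u0 = m c01 + x c02 ∧ u1 = - l c01 + x c12 ∧ u2 = - l c02 - m c12 := by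
    intro j u0 h0 u1 h1 u2 h2 h
    rw [hl', hm, hx] at h
    obtain ⟨c01, hc01, c02, hc02, c12, hc12, e0, e1, e2⟩ := hkos j u0 h0 (t • u0 + u1)
      (Submodule.add_mem _ (Submodule.smul_mem _ _ h0) h1) u2 h2 (by
        rw [← h, smul_add, smul_comm (X 1 : S3 K) t u0]; abel)
    refine ⟨c01, hc01, c02, hc02, c12 - t • c02,
      Submodule.sub_mem _ hc12 (Submodule.smul_mem _ _ hc02), e0, ?_, ?_⟩
    · have : u1 = (t • u0 + u1) - t • u0 := by abel
      rw [this, e1, e0, hl', hx, smul_add, smul_sub, smul_comm (X 2 : S3 K) t c02]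
      abel
    · rw [e2, hl', hm, smul_sub, smul_comm (X 1 : S3 K) t c02]
      abel
  -- ranks of `l`
  have hker : ∀ j, (∀ u ∈ g j, π u = 0 → u = 0) → (∀ u ∈ g (j+1), π u = 0 → u = 0) →
      ∀ W, (g j).map π = W →
      finrank K ((g j).map l) + finrank K (kerOn (y 0 + t • y 1) W) = finrank K (g j) := by
    intro j hj hj1 W hW
    have hfj := hfin j
    have h1 := LinearMap.finrank_range_add_finrank_ker (l.domRestrict (g j))
    rw [LinearMap.range_domRestrict] at h1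
    rw [← h1]
    congr 1
    have h2 : ((LinearMap.ker (l.domRestrict (g j))).map (g j).subtype).map π =
        kerOn (y 0 + t • y 1) W := by
      ext w
      constructor
      · rintro ⟨_, ⟨u, hu, rfl⟩, rfl⟩
        refine ⟨hW ▸ ⟨u, u.2, rfl⟩, ?_⟩
        have h3 : l (u : (Fin n → S3 K) ⧸ R) = 0 := hu
        show (y 0 + t • y 1) * π u = 0
        rw [← hπl, h3, map_zero]
      · rintro ⟨hw, hw0⟩
        rw [SetLike.mem_coe, ← hW] at hw
        obtain ⟨u, hu, rfl⟩ := hw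
        have h3 : π (l u) = 0 := by rw [hπl]; exact hw0
        have h4 : l u = 0 := hj1 _ (hlmem j u hu) h3
        exact ⟨u, ⟨⟨u, hu⟩, h4, rfl⟩, rfl⟩
    rw [← h2, hdim j hj _ (Submodule.map_subtype_le _ _), Submodule.finrank_map_subtype_eq]
  have hk0 := hker 0 hinj0 hinj1 V hmap
  have hk1 := hker 1 hinj1 hinj2 _ hm1
  -- `m` is injective modulo `l`
  have hbase : ∀ u ∈ g 1, (∃ v ∈ g 1, m u = l v) → ∃ w ∈ g 0, u = l w := by
    have hf0 := hfin 0
    have hf1 := hfin 1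
    have hf2 := hfin 2
    let L0 := (g 0).map l
    let L1 := (g 1).map l
    -- consider `φ : g 1 → M ⧸ L1`
    let φ : g 1 →ₗ[K] (((Fin n → S3 K) ⧸ R) ⧸ L1) := L1.mkQ.comp (m.domRestrict (g 1))
    have hφ : ∀ u : g 1, φ u = L1.mkQ (m u) := fun u => rfl
    have hrank := LinearMap.finrank_range_add_finrank_ker φ
    have hrange : LinearMap.range φ = (g 2).map L1.mkQ := by
      ext w
      constructor
      · rintro ⟨u, rfl⟩
        exact ⟨m u, hmmem 1 u u.2, rfl⟩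
      · rintro ⟨v, hv, rfl⟩
        obtain ⟨a, ha, b, hb, rfl⟩ := hgenlm 1 v hv
        refine ⟨⟨b, hb⟩, ?_⟩
        rw [hφ, map_add]
        have h1 : L1.mkQ (l a) = 0 := (Submodule.Quotient.mk_eq_zero L1).2 ⟨a, ha, rfl⟩
        rw [h1, zero_add]
    have hr2 := LinearMap.finrank_range_add_finrank_ker (L1.mkQ.domRestrict (g 2))
    rw [LinearMap.range_domRestrict, LinearMap.ker_domRestrict, Submodule.ker_mkQ] at hr2
    have hL1 : L1 ≤ g 2 := by
      rintro _ ⟨v, hv, rfl⟩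
      exact hlmem 1 v hv
    have hr3 : finrank K (L1.submoduleOf (g 2)) = finrank K L1 :=
      (Submodule.submoduleOfEquivOfLe hL1).finrank_eq
    have hr3' : finrank K (Submodule.comap (g 2).subtype L1) = finrank K L1 := hr3
    rw [hr3'] at hr2
    have hkle : (L0.comap (g 1).subtype) ≤ LinearMap.ker φ := by
      rintro u ⟨v, hv, hvu⟩
      rw [LinearMap.mem_ker, hφ]
      refine (Submodule.Quotient.mk_eq_zero L1).2 ⟨m v, hmmem 0 v hv, ?_⟩
      have hvu' : l v = (u : (Fin n → S3 K) ⧸ R) := hvu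
      rw [hlm, hvu']
    have hL0 : L0 ≤ g 1 := by
      rintro _ ⟨v, hv, rfl⟩
      exact hlmem 0 v hv
    have hr4 : finrank K (L0.comap (g 1).subtype) = finrank K L0 :=
      (Submodule.submoduleOfEquivOfLe hL0).finrank_eq
    have hzt := hz t
    rw [hrange] at hrank
    have hL0' : finrank K L0 + finrank K (kerOn (y 0 + t • y 1) V) = finrank K (g 0) := hk0
    have hL1' : finrank K L1 + finrank K (kerOn (y 0 + t • y 1) (sh y V)) =
        finrank K (g 1) := hk1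
    have heq : L0.comap (g 1).subtype = LinearMap.ker φ := by
      refine Submodule.eq_of_le_of_finrank_le hkle ?_
      omega
    rintro u hu ⟨v, hv, huv⟩
    have h5 : (⟨u, hu⟩ : g 1) ∈ LinearMap.ker φ := by
      rw [LinearMap.mem_ker, hφ]
      exact (Submodule.Quotient.mk_eq_zero L1).2 ⟨v, hv, huv.symm⟩
    rw [← heq] at h5
    obtain ⟨w, hw, hwu⟩ := h5
    exact ⟨w, hw, hwu.symm⟩
  have hall : ∀ j, ∀ u ∈ g (j+1), (∃ v ∈ g (j+1), m u = l v) → ∃ w ∈ g j, u = l w := by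
    intro j
    induction j with
    | zero => exact hbase
    | succ j ih =>
      rintro u hu ⟨v, hv, huv⟩
      obtain ⟨c01, h01, c02, h02, c12, h12, -, e1, e2⟩ := hkos' j (-v)
        (Submodule.neg_mem _ hv) u hu 0 (Submodule.zero_mem _) (by
          rw [map_neg, huv, map_zero]; abel)
      obtain ⟨w, hw, hw'⟩ := ih c12 h12 ⟨-c02, Submodule.neg_mem _ h02, by
        rw [map_neg]
        have : - l c02 = m c12 := sub_eq_zero.1 e2.symm
        exact this.symm⟩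
      refine ⟨-c01 + x w, Submodule.add_mem _ (Submodule.neg_mem _ h01) (hxmem j w hw), ?_⟩
      rw [e1, hw', map_add, map_neg, hlx]
  have step := kl_step g hX t l m hl hm 0 1 (fun j _ => hall j) d q hqd hqt hq 0 le_rfl
    (by omega)
  have htor : ∀ j ≤ 1, ∀ u ∈ g j, l u = 0 → iP q • u = 0 := by
    intro j hj u hu hlu
    refine hq j hj u hu ⟨X 0 + C t * X 1, ?_, ?_⟩
    · intro h
      have := congrArg (coeff (Finsupp.single 0 1)) h
      rw [coeff_add, coeff_X, coeff_C_mul, coeff_X] at this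
      simp [Finsupp.single_left_inj] at this
    · rw [← hlu, hl]
      simp [iP, map_add, map_mul, rename_X]
  refine ⟨t, (g 0 ⊓ LinearMap.ker (sm (K := K) (iP q))).map π, ?_, ?_, ?_, ?_⟩
  · rw [← hmap]
    exact Submodule.map_mono inf_le_left
  · -- nonzero
    have h1 : kerOn (y 0 + t • y 1) (sh y V) ≠ ⊥ := by
      intro h
      have h2 := hz t
      rw [h, finrank_bot] at h2
      omega
    obtain ⟨s, hs, hs0⟩ := Submodule.exists_mem_ne_zero_of_ne_bot h1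
    obtain ⟨hs1, hs2⟩ := hs
    rw [SetLike.mem_coe, ← hm1] at hs1
    obtain ⟨u, hu, rfl⟩ := hs1
    have h3 : π (l u) = 0 := by rw [hπl]; exact hs2
    have h4 : l u = 0 := hinj2 _ (hlmem 1 u hu) h3
    obtain ⟨w, hw, hw1, hw2⟩ := step u hu (htor 1 le_rfl u hu h4)
    intro hbot
    have h5 : π w ∈ (g 0 ⊓ LinearMap.ker (sm (K := K) (iP q))).map π := ⟨w, ⟨hw, hw1⟩, rfl⟩
    rw [hbot, Submodule.mem_bot] at h5
    have h6 : w = 0 := hinj0 w hw h5
    apply hs0
    rw [hw2, h6, map_zero, map_zero]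
  · rintro v ⟨hv, hv0⟩
    rw [SetLike.mem_coe, ← hmap] at hv
    obtain ⟨u, hu, rfl⟩ := hv
    have h3 : π (l u) = 0 := by rw [hπl]; exact hv0
    have h4 : l u = 0 := hinj1 _ (hlmem 0 u hu) h3
    exact ⟨u, ⟨hu, htor 0 (by omega) u hu h4⟩, rfl⟩
  · refine sh_le fun i v hv => ?_
    obtain ⟨u, ⟨hu, huq⟩, rfl⟩ := hv
    have huq' : iP q • u = 0 := huq
    obtain ⟨w, hw, hw1, hw2⟩ := step ((X i : S3 K) • u) (hX 0 i u hu) (by
      rw [smul_comm, huq', smul_zero])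
    refine ⟨π w, ⟨w, ⟨hw, hw1⟩, rfl⟩, ?_⟩
    show (y 0 + t • y 1) * π w = y i * π u
    rw [← hπl, ← hw2, hπX]

end Vale.Agent.P200.CF
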