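import Vale.Agent.P200.CF.Basic

namespace Vale.Agent.P200.CF

open MvPolynomial Module

theorem mulLeft_pow_apply {K A : Type*} [Field K] [CommRing A] [Algebra K A] (l : A) (n : ℕ)
    (v : A) : ((LinearMap.mulLeft K l) ^ n) v = l ^ n * v := by
  induction n with
  | zero => simp
  | succ n ih => rw [pow_succ', Module.End.mul_apply, ih, LinearMap.mulLeft_apply, pow_succ',
      mul_assoc]

theorem pow_ops_alg {K A : Type*} [Field K] [CommRing A] [Algebra K A]
    (y : Fin 3 → A) (V : Submodule K A) (μ ξ : Module.End K V)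
    (hμ : ∀ v : V, y 0 * (μ v : A) = y 1 * v) (hξ : ∀ v : V, y 0 * (ξ v : A) = y 2 * v)
    (i j k : ℕ) (u : V) :
    y 0 ^ i * (y 1 ^ j * (y 2 ^ k * (u : A))) =
      y 0 ^ (i + j + k) * (((μ ^ j * ξ ^ k) u : V) : A) := by
  have h := pow_ops (LinearMap.mulLeft K (y 0)) (LinearMap.mulLeft K (y 1))
    (LinearMap.mulLeft K (y 2)) (by
      refine LinearMap.ext fun v => ?_
      simp only [Module.End.mul_apply, LinearMap.mulLeft_apply]
      ring) (by
      refine LinearMap.ext fun v => ?_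
      simp only [Module.End.mul_apply, LinearMap.mulLeft_apply]
      ring) V μ ξ hμ hξ i j k u
  rw [mulLeft_pow_apply, mulLeft_pow_apply, mulLeft_pow_apply, mulLeft_pow_apply] at h
  exact h

theorem aeval_mul_eq {K A : Type*} [Field K] [CommRing A] [Algebra K A]
    (y : Fin 3 → A) (V : Submodule K A) (μ ξ : Module.End K V)
    (hμ : ∀ v : V, y 0 * (μ v : A) = y 1 * v) (hξ : ∀ v : V, y 0 * (ξ v : A) = y 2 * v)
    {G : S3 K} {c : ℕ} (hG : G.IsHomogeneous c) (u : V) :
    aeval y G * (u : A) = y 0 ^ c * ((ordEval μ ξ G u : V) : A) := by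
  rw [aeval_def, eval₂_eq', Finset.sum_mul, ordEval, LinearMap.sum_apply, Submodule.coe_sum,
    Finset.mul_sum]
  refine Finset.sum_congr rfl fun e he => ?_
  have hd : e 0 + e 1 + e 2 = c := by
    have h1 := hG (mem_support_iff.1 he)
    rw [Finsupp.weight_apply, Finsupp.sum_fintype _ _ (by simp)] at h1
    simpa [Fin.sum_univ_three] using h1
  have h := pow_ops_alg y V μ ξ hμ hξ (e 0) (e 1) (e 2) u
  rw [hd] at h
  rw [Fin.prod_univ_three, LinearMap.smul_apply, Submodule.coe_smul, mul_smul_comm, ← h,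
    ← Algebra.smul_def, smul_mul_assoc, mul_assoc, mul_assoc]

/-- common core -/
theorem zero_core {K A : Type*} [Field K] [IsAlgClosed K] [CommRing A] [Algebra K A]
    (y : Fin 3 → A) (gr : ℕ → Submodule K A)
    (hmul : ∀ j i, ∀ u ∈ gr j, y i * u ∈ gr (j+1))
    (s c e : ℕ)
    (hsoc : ∀ j < s, ∀ u ∈ gr j, (∀ i, y i * u = 0) → u = 0)
    (hpts : ∀ T : Finset (Fin 3 → K), (∀ p ∈ T, p ≠ 0) →
      ∃ G : S3 K, G.IsHomogeneous c ∧ aeval y G = 0 ∧ ∀ p ∈ T, eval p G ≠ 0)
    (V : Submodule K A) [Module.Finite K V] (hV : V ≤ gr e)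
    (μ ξ : Module.End K V)
    (hμ : ∀ v : V, y 0 * (μ v : A) = y 1 * v) (hξ : ∀ v : V, y 0 * (ξ v : A) = y 2 * v)
    (hcomm : finrank K (LinearMap.range (μ * ξ - ξ * μ)) ≤ 1) (hs : e + c ≤ s) : V = ⊥ := by
  obtain ⟨T, hT, hT'⟩ := kl_tri μ ξ hcomm
  obtain ⟨G, hGc, hG0, hGT⟩ := hpts T (fun p hp hp0 => by
    have h1 := hT p hp
    rw [hp0] at h1
    exact zero_ne_one h1)
  have hsurj := hT' G hGT
  have h0 : ∀ w : V, y 0 ^ c * (w : A) = 0 := by
    intro w
    obtain ⟨u, hu⟩ := hsurj w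
    rw [← hu, ← aeval_mul_eq y V μ ξ hμ hξ hGc u, hG0, zero_mul]
  have hmem : ∀ i j k : ℕ, ∀ v ∈ V, y 0 ^ i * (y 1 ^ j * (y 2 ^ k * v)) ∈ gr (e + (i + j + k)) := by
    have hm : ∀ (t : Fin 3) (n j : ℕ), ∀ u ∈ gr j, y t ^ n * u ∈ gr (j + n) := by
      intro t n
      induction n with
      | zero => intro j u hu; simpa using hu
      | succ n ih =>
        intro j u hu
        rw [pow_succ', mul_assoc]
        exact hmul _ t _ (ih j u hu)
    intro i j k v hv
    have h1 := hm 0 i _ _ (hm 1 j _ _ (hm 2 k _ _ (hV hv)))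
    rwa [show e + k + j + i = e + (i + j + k) by omega] at h1
  have hdesc : ∀ n ≤ c, ∀ i j k : ℕ, i + j + k = c - n → ∀ v ∈ V,
      y 0 ^ i * (y 1 ^ j * (y 2 ^ k * v)) = 0 := by
    intro n
    induction n with
    | zero =>
      intro _ i j k hijk v hv
      have := pow_ops_alg y V μ ξ hμ hξ i j k ⟨v, hv⟩
      rw [this, hijk, Nat.sub_zero]
      exact h0 _
    | succ n ih =>
      intro hn i j k hijk v hv
      refine hsoc (e + (i + j + k)) (by omega) _ (hmem i j k v hv) fun t => ?_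
      have hih := ih (by omega)
      fin_cases t
      · have h1 := hih (i+1) j k (by omega) v hv
        rw [pow_succ', mul_assoc] at h1
        exact h1
      · have h1 := hih i (j+1) k (by omega) v hv
        rw [pow_succ', mul_assoc] at h1
        show y 1 * _ = 0
        rw [← h1]
        ring
      · have h1 := hih i j (k+1) (by omega) v hv
        rw [pow_succ', mul_assoc] at h1
        show y 2 * _ = 0
        rw [← h1]
        ring
  rw [Submodule.eq_bot_iff]
  intro v hv
  have := hdesc c le_rfl 0 0 0 (by omega) v hv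
  simpa using this

/-- division by an injective multiplication -/
theorem exists_div {K A : Type*} [Field K] [CommRing A] [Algebra K A] (V : Submodule K A)
    (l m : A) (hinj : ∀ u ∈ V, l * u = 0 → u = 0)
    (hm : ∀ v ∈ V, m * v ∈ V.map (LinearMap.mulLeft K l)) :
    ∃ μ : Module.End K V, ∀ v : V, l * (μ v : A) = m * v := by
  have h1 : ∀ v : V, ∃ w : V, l * (w : A) = m * v := by
    intro v
    obtain ⟨w, hw, hw'⟩ := hm v v.2
    exact ⟨⟨w, hw⟩, hw'⟩
  choose f hf using h1
  have huniq : ∀ u w : V, l * (u : A) = l * w → u = w := by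
    intro u w h
    have h2 : l * ((u - w : V) : A) = 0 := by
      rw [Submodule.coe_sub, mul_sub, h, sub_self]
    have h3 := hinj _ (u - w).2 h2
    exact sub_eq_zero.1 (Subtype.ext h3)
  have hadd : ∀ u v, f (u + v) = f u + f v := fun u v => huniq _ _ (by
    rw [hf, Submodule.coe_add, Submodule.coe_add, mul_add, mul_add, hf, hf])
  have hsmul : ∀ (a : K) u, f (a • u) = a • f u := fun a u => huniq _ _ (by
    rw [hf, Submodule.coe_smul, Submodule.coe_smul, mul_smul_comm, mul_smul_comm, hf])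
  exact ⟨⟨⟨f, hadd⟩, hsmul⟩, hf⟩

/-- a nonzero space killed by a linear form grows -/
theorem cf_zl {K A : Type*} [Field K] [IsAlgClosed K] [CommRing A] [Algebra K A]
    (y : Fin 3 → A) (gr : ℕ → Submodule K A)
    (hmul : ∀ j i, ∀ u ∈ gr j, y i * u ∈ gr (j+1))
    (s c e : ℕ) (hc : 1 ≤ c)
    (hsoc : ∀ j < s, ∀ u ∈ gr j, (∀ i, y i * u = 0) → u = 0)
    (hpts : ∀ T : Finset (Fin 3 → K), (∀ p ∈ T, p ≠ 0) →
      ∃ G : S3 K, G.IsHomogeneous c ∧ aeval y G = 0 ∧ ∀ p ∈ T, eval p G ≠ 0)
    (Z : Submodule K A) [Module.Finite K Z] (hZ : Z ≤ gr e) (hZ0 : Z ≠ ⊥)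
    (h0 : ∀ u ∈ Z, y 0 * u = 0) (hs : e + c ≤ s) :
    finrank K Z + 1 ≤ finrank K (sh y Z) := by
  by_contra hlt
  push Not at hlt
  haveI := sh_fin y Z
  -- `y 1` is injective on `Z`
  have hinj : ∀ u ∈ Z, y 1 * u = 0 → u = 0 := by
    intro u hu h1
    obtain ⟨G, hGc, hG0, hGT⟩ := hpts {![0, 0, 1]} (by
      intro p hp hp0
      rw [Finset.mem_singleton] at hp
      have := congrFun (hp.symm.trans hp0) 2
      simp at this)
    have hG1 := hGT _ (Finset.mem_singleton_self _)
    have key : aeval y G * u = eval ![0, 0, 1] G • (y 2 ^ c * u) := by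
      rw [aeval_def, eval₂_eq', Finset.sum_mul, eval_eq', Finset.sum_smul]
      refine Finset.sum_congr rfl fun d hd => ?_
      have hd' : d 0 + d 1 + d 2 = c := by
        have h1 := hGc (mem_support_iff.1 hd)
        rw [Finsupp.weight_apply, Finsupp.sum_fintype _ _ (by simp)] at h1
        simpa [Fin.sum_univ_three] using h1
      rw [Fin.prod_univ_three, Fin.prod_univ_three]
      simp only [Matrix.cons_val_zero, Matrix.cons_val_one, Matrix.cons_val]
      rcases Nat.eq_zero_or_pos (d 0) with hd0 | hd0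
      · rcases Nat.eq_zero_or_pos (d 1) with hd1 | hd1
        · have hd2 : d 2 = c := by omega
          rw [hd0, hd1, hd2, pow_zero, pow_zero, pow_zero, one_pow, one_mul, one_mul, mul_one,
            mul_one, mul_one, ← Algebra.smul_def, smul_mul_assoc]
        · obtain ⟨n, hn⟩ := Nat.exists_eq_add_of_lt hd1
          rw [show d 1 = n + 1 by omega, zero_pow (Nat.succ_ne_zero n), mul_zero, zero_mul,
            mul_zero, zero_smul, pow_succ]
          have : (algebraMap K A (coeff d G)) * (y 0 ^ d 0 * (y 1 ^ n * y 1) * y 2 ^ d 2) * u =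
            (algebraMap K A (coeff d G)) * (y 0 ^ d 0 * y 1 ^ n * y 2 ^ d 2) * (y 1 * u) := by
            ring
          rw [this, h1, mul_zero]
      · obtain ⟨n, hn⟩ := Nat.exists_eq_add_of_lt hd0
        rw [show d 0 = n + 1 by omega, zero_pow (Nat.succ_ne_zero n), zero_mul, zero_mul,
          mul_zero, zero_smul, pow_succ]
        have : (algebraMap K A (coeff d G)) * (y 0 ^ n * y 0 * y 1 ^ d 1 * y 2 ^ d 2) * u =
          (algebraMap K A (coeff d G)) * (y 0 ^ n * y 1 ^ d 1 * y 2 ^ d 2) * (y 0 * u) := by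
          ring
        rw [this, h0 u hu, mul_zero]
    rw [hG0, zero_mul] at key
    have h2 : y 2 ^ c * u = 0 := (smul_eq_zero.1 key.symm).resolve_left hG1
    have hm : ∀ n : ℕ, y 2 ^ n * u ∈ gr (e + n) := by
      intro n
      induction n with
      | zero => simpa using hZ hu
      | succ n ih =>
        rw [pow_succ', mul_assoc]
        exact hmul _ 2 _ ih
    have hdesc : ∀ n ≤ c, y 2 ^ (c - n) * u = 0 := by
      intro n
      induction n with
      | zero => intro _; simpa using h2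
      | succ n ih =>
        intro hn
        have h3 := ih (by omega)
        rw [show c - n = (c - (n+1)) + 1 by omega, pow_succ', mul_assoc] at h3
        refine hsoc (e + (c - (n+1))) (by omega) _ (hm _) fun t => ?_
        fin_cases t
        · show y 0 * _ = 0
          rw [mul_left_comm, h0 u hu, mul_zero]
        · show y 1 * _ = 0
          rw [mul_left_comm, h1, mul_zero]
        · exact h3
    have := hdesc c le_rfl
    simpa using this
  -- `y 1 Z = sh y Z`
  have hle : Z.map (LinearMap.mulLeft K (y 1)) ≤ sh y Z :=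
    le_iSup (fun i => Z.map (LinearMap.mulLeft K (y i))) 1
  have hfr : finrank K (Z.map (LinearMap.mulLeft K (y 1))) = finrank K Z := by
    have h1 : ∀ u : Z, (LinearMap.mulLeft K (y 1)).domRestrict Z u = 0 → u = 0 := fun u hu =>
      Subtype.ext (hinj u u.2 hu)
    have h2 := LinearMap.finrank_range_of_inj (LinearMap.ker_eq_bot.1 (LinearMap.ker_eq_bot'.2 h1))
    rwa [LinearMap.range_domRestrict] at h2
  have heq : Z.map (LinearMap.mulLeft K (y 1)) = sh y Z :=
    Submodule.eq_of_le_of_finrank_le hle (by omega)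
  obtain ⟨ξ, hξ⟩ := exists_div Z (y 1) (y 2) hinj (fun v hv => by
    rw [heq]; exact mem_sh 2 hv)
  let τ : Equiv.Perm (Fin 3) := Equiv.swap 0 1
  have hττ : ∀ i, τ (τ i) = i := by decide
  refine hZ0 (zero_core (y ∘ τ) gr (fun j i u hu => hmul j (τ i) u hu) s c e ?_ ?_ Z hZ 0 ξ
    ?_ ?_ ?_ hs)
  · intro j hj u hu h
    refine hsoc j hj u hu fun i => ?_
    have := h (τ i)
    rwa [Function.comp_apply, hττ i] at this
  · intro T hT
    classical
    obtain ⟨G, hGc, hG0, hGT⟩ := hpts (T.image (fun p => p ∘ τ)) (by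
      intro p hp hp0
      obtain ⟨q, hq, rfl⟩ := Finset.mem_image.1 hp
      refine hT q hq (funext fun i => ?_)
      have := congrFun hp0 (τ i)
      rwa [Function.comp_apply, hττ i] at this)
    refine ⟨rename τ G, hGc.rename_isHomogeneous, ?_, ?_⟩
    · rw [aeval_rename]
      have : (y ∘ τ) ∘ τ = y := by
        funext i
        rw [Function.comp_apply, Function.comp_apply,
          hττ i]
      rw [this, hG0]
    · intro p hp
      rw [eval_rename]
      exact hGT _ (Finset.mem_image_of_mem _ hp)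
  · intro v
    show y (τ 0) * ((0 : Module.End K Z) v : Z).1 = y (τ 1) * v
    rw [show τ 1 = 0 from Equiv.swap_apply_right 0 1, h0 v v.2]
    simp
  · intro v
    show y (τ 0) * (ξ v : A) = y (τ 2) * v
    rw [show τ 0 = 1 from Equiv.swap_apply_left 0 1,
      show τ 2 = 2 from Equiv.swap_apply_of_ne_of_ne (by decide) (by decide)]
    exact hξ v
  · have h1 : (0 : Module.End K Z) * ξ - ξ * 0 = 0 := by
      refine LinearMap.ext fun v => ?_
      show (0 : Module.End K Z) (ξ v) - ξ ((0 : Module.End K Z) v) = 0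
      rw [LinearMap.zero_apply, LinearMap.zero_apply, map_zero, sub_zero]
    rw [h1, LinearMap.range_zero, finrank_bot]
    exact Nat.zero_le 1

/-- the key lemma for `k = 0`, with injectivity of `y 0` only on `V` -/
theorem cf_key_zero {K A : Type*} [Field K] [IsAlgClosed K] [CommRing A] [Algebra K A]
    (y : Fin 3 → A) (gr : ℕ → Submodule K A)
    (hmul : ∀ j i, ∀ u ∈ gr j, y i * u ∈ gr (j+1))
    (s c e : ℕ) (hc : 1 ≤ c)
    (hsoc : ∀ j < s, ∀ u ∈ gr j, (∀ i, y i * u = 0) → u = 0)
    (hpts : ∀ T : Finset (Fin 3 → K), (∀ p ∈ T, p ≠ 0) →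
      ∃ G : S3 K, G.IsHomogeneous c ∧ aeval y G = 0 ∧ ∀ p ∈ T, eval p G ≠ 0)
    (V : Submodule K A) [Module.Finite K V] (hV : V ≤ gr e)
    (hgen : V.map (LinearMap.mulLeft K (y 0)) = sh y V)
    (hinj : ∀ u ∈ V, y 0 * u = 0 → u = 0)
    (hk2 : finrank K (sh y V) ≤ finrank K (sh y (sh y V)) + 1) (hs : e + c ≤ s) : V = ⊥ := by
  haveI := sh_fin y V
  haveI := sh_fin y (sh y V)
  obtain ⟨μ, hμ⟩ := exists_div V (y 0) (y 1) hinj (fun v hv => by
    rw [hgen]; exact mem_sh 1 hv)
  obtain ⟨ξ, hξ⟩ := exists_div V (y 0) (y 2) hinj (fun v hv => by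
    rw [hgen]; exact mem_sh 2 hv)
  refine zero_core y gr hmul s c e hsoc hpts V hV μ ξ hμ hξ ?_ hs
  -- the kernel of `y 0` on `sh y V`
  set W := sh y V with hW
  have hWW : W.map (LinearMap.mulLeft K (y 0)) = sh y W := by
    refine le_antisymm (le_iSup (fun i => W.map (LinearMap.mulLeft K (y i))) 0)
      (sh_le fun i w hw => ?_)
    rw [← hgen] at hw
    obtain ⟨v, hv, rfl⟩ := hw
    refine ⟨y i * v, mem_sh i hv, ?_⟩
    simp only [LinearMap.mulLeft_apply]
    ring
  let f : W →ₗ[K] A := (LinearMap.mulLeft K (y 0)).domRestrict W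
  have hrk := LinearMap.finrank_range_add_finrank_ker f
  rw [LinearMap.range_domRestrict, hWW] at hrk
  have hker : finrank K (LinearMap.ker f) ≤ 1 := by omega
  let C0 := μ * ξ - ξ * μ
  have hC : ∀ v : V, y 0 * (y 0 * (C0 v : A)) = 0 := by
    intro v
    have e1 : (C0 v : A) = (μ (ξ v) : A) - (ξ (μ v) : A) := by
      show (((μ * ξ - ξ * μ) v : V) : A) = _
      rw [LinearMap.sub_apply, Submodule.coe_sub]; rfl
    rw [e1, mul_sub, hμ, hξ, mul_sub, mul_left_comm, hξ, mul_left_comm (y 0) (y 2), hμ]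
    ring
  let ι : V →ₗ[K] W := LinearMap.codRestrict W ((LinearMap.mulLeft K (y 0)).domRestrict V)
    (fun v => mem_sh 0 v.2)
  have hι : Function.Injective ι := by
    rw [← LinearMap.ker_eq_bot, LinearMap.ker_eq_bot']
    intro u hu
    exact Subtype.ext (hinj u u.2 (congrArg Subtype.val hu))
  have h1 : (LinearMap.range C0).map ι ≤ LinearMap.ker f := by
    rintro _ ⟨_, ⟨v, rfl⟩, rfl⟩
    exact LinearMap.mem_ker.2 (hC v)
  have h2 := Submodule.finrank_mono h1
  have h3 : finrank K ((LinearMap.range C0).map ι) = finrank K (LinearMap.range C0) :=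
    (LinearEquiv.finrank_eq (Submodule.equivMapOfInjective ι hι _)).symm
  rw [h3] at h2
  exact h2.trans hker

end Vale.Agent.P200.CF
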